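import Vale.Agent.P315R45.Fin

/-! P315 on the standard word RAM: for every fixed `ε > 0` the time complexity of
`(1 + ε)`-approximating the edit distance is `n ^ (1 + o(1))`. -/

set_option autoImplicit false

namespace Vale.Agent.Results.P315.AAWordRAM

open Vale.Agent.P315 Vale.Agent.P315R45

/-- (1) For every `ε > 0` there is one word RAM program that, for every `δ > 0`, for all strings
of length at most `n` over an alphabet of size `σ` and every word size `w ≥ log σ + k log (n + 2)`,
halts in time `O(n ^ (1 + δ))` and outputs a `(1 + ε)`-approximation of the edit distance with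
probability at least `2/3`. (2) A word RAM program that outputs an `α`-approximation after `T`
steps with probability at least `2/3` on all binary strings of length `n` has `n ≤ 3 T`. (3) For
alphabets of polynomial size and words of `Θ(log n)` bits, time `O(n ^ β)` is achievable for
`β > 1` and not for `β < 1`. (4) `ED` is the minimum number of edits. (5) A run of `T` steps
depends only on the first `T` random words. -/
theorem result :
    (∀ ε : ℝ, 0 < ε → ∃ (k : ℕ) (P : List Instr), ∀ δ : ℝ, 0 < δ → ∃ C : ℝ,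
      ∀ (n σ w T : ℕ) (x y : List ℕ), x.length ≤ n → y.length ≤ n → 0 < σ →
        (∀ a ∈ x ++ y, a < σ) → σ * (n + 2) ^ k ≤ 2 ^ w → C * ((n : ℝ) + 1) ^ (1 + δ) ≤ T →
        Approx (1 + ε) P w T x y) ∧
    (∀ (α : ℝ) (P : List Instr) (n w T : ℕ),
      (∀ x y : List ℕ, x.length = n → y.length = n → (∀ a ∈ x ++ y, a < 2) →
        2 / 3 ≤ success α P w T x y) → n ≤ 3 * T) ∧
    (∀ ε : ℝ, 0 < ε → ∀ a : ℕ, 1 ≤ a → ∀ β : ℝ,
      (1 < β → InTime (1 + ε) a β) ∧ (β < 1 → ¬ InTime (1 + ε) a β)) ∧
    (∀ x y : List ℕ, IsLeast {k : ℕ | Edits k x y} (ED x y)) ∧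
    (∀ (w T : ℕ) (P : List Instr) (ρ : ℕ → BitVec w) (x y : List ℕ),
      run P ρ x y T = run P (words fun i : Fin T => ρ i) x y T) :=
  ⟨fun _ hε => upper hε, lower, fun _ hε a ha _ => ⟨inTime_of hε a, not_inTime _ ha⟩,
    ED_isLeast, fun _ T P ρ x y => run_words P ρ x y T⟩

end Vale.Agent.Results.P315.AAWordRAM
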